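import Vale.Agent.Q310.Patch3
import Vale.Agent.Q310.Comp
import Vale.Agent.Q310.Up

/-!
# P310: deciding Weisfeiler-Leman equivalence takes time `n ^ Θ(k)`, in all machine models
-/

namespace Vale.Agent.Results.P310.A0AllModels

open Filter Turing Vale.Agent.P310 Vale.Agent.P310Z Vale.Agent.P310T Vale.Agent.Q310

/-- (1) Lower bound `n ^ (c k)` for all multitape Turing machines, stack machines and random access
machines which are correct on all large graphs. (2) Upper bound `O(n ^ (C k))` in each model.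
(3) No exponent `g(k) = o(k)` is possible. (4) The worst-case time is attained, and it is the
number of steps until the machine halts. -/
theorem result :
    (∃ c : ℝ, 0 < c ∧ ∃ k₀ : ℕ, ∀ k : ℕ, k₀ ≤ k → ∀ T : ℕ → ℕ, IsTime k T →
      ∀ᶠ n : ℕ in atTop, (n : ℝ) ^ (c * k) ≤ (T n : ℝ)) ∧
    (∃ C : ℕ, ∀ k : ℕ, 2 ≤ k →
      (∃ A : TM, TmDecides A k 0 ∧
        (fun n : ℕ => (A.worst n : ℝ)) =O[atTop] (fun n : ℕ => (n : ℝ) ^ (C * k))) ∧
      (∃ (A : FinTM2) (inp : Bool → A.Γ A.k₀) (yes : A.Γ A.k₁) (T : ℕ → ℕ),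
        StackDecides A inp yes k 0 T ∧
          (fun n : ℕ => (T n : ℝ)) =O[atTop] (fun n : ℕ => (n : ℝ) ^ (C * k))) ∧
      ∃ (W : ℕ) (P : List Instr) (T : ℕ → ℕ), RamDecides .unit P k 1 T ∧
        RamDecides .log P k 1 T ∧ RamDecides (.word W) P k 1 T ∧
          (fun n : ℕ => (T n : ℝ)) =O[atTop] (fun n : ℕ => (n : ℝ) ^ (C * k))) ∧
    (¬ ∃ g : ℕ → ℝ, g =o[atTop] (fun k : ℕ => (k : ℝ)) ∧
      ∀ k : ℕ, 2 ≤ k → ∃ T : ℕ → ℕ, IsTime k T ∧
        (fun n : ℕ => (T n : ℝ)) =O[atTop] (fun n : ℕ => (n : ℝ) ^ g k)) ∧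
    ∀ (k n₀ : ℕ) (A : TM), TmDecides A k n₀ → ∀ n : ℕ, n₀ ≤ n →
      IsGreatest {t | ∃ G H : SimpleGraph (Fin n),
        IsLeast {s | A.act (A.conf (inputWord G H) s) = none} t} (A.worst n) := by
  refine ⟨lower_of P3.patch, ?_, noSub_of P3.patch, worst_spec⟩
  obtain ⟨C, hC⟩ := upper
  obtain ⟨C', hC'⟩ := ram_upper exists_ram
  have mono : ∀ {T : ℕ → ℝ} {a b : ℕ}, a ≤ b → (T =O[atTop] fun n : ℕ => (n : ℝ) ^ a) →
      T =O[atTop] fun n : ℕ => (n : ℝ) ^ b := fun {T a b} hab h => by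
    refine h.trans (Asymptotics.IsBigO.of_bound 1 ?_)
    filter_upwards [eventually_ge_atTop 1] with n hn
    rw [one_mul, Real.norm_of_nonneg (by positivity), Real.norm_of_nonneg (by positivity)]
    exact pow_le_pow_right₀ (by exact_mod_cast hn) hab
  refine ⟨C + C', fun k hk => ?_⟩
  obtain ⟨⟨A, hA, hA'⟩, B, inp, yes, T, hB, hB'⟩ := hC k hk
  obtain ⟨W, P, T', h1, h2, h3, h4⟩ := hC' k hk
  exact ⟨⟨A, fun n _ => hA n, mono (Nat.mul_le_mul_right k (by omega)) hA'⟩,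
    ⟨B, inp, yes, T, fun n _ => hB n, mono (Nat.mul_le_mul_right k (by omega)) hB'⟩,
    W, P, T', h1, h2, h3, mono (Nat.mul_le_mul_right k (by omega)) h4⟩

end Vale.Agent.Results.P310.A0AllModels
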